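import Mathlib

/-!
Covering numbers by translates, polars and symmetric convex bodies.
-/

namespace Vale.Agent.P126

open Pointwise
open scoped RealInnerProductSpace

/-- Euclidean `n`-space. -/
abbrev Euc (n : ℕ) : Type := EuclideanSpace ℝ (Fin n)

/-- The least number of translates `x + B`, with `x` arbitrary, whose union contains `A`. -/
noncomputable def coveringNumber {n : ℕ} (A B : Set (Euc n)) : ℕ :=
  sInf {k | ∃ t : Finset (Euc n), t.card = k ∧ A ⊆ ⋃ x ∈ t, x +ᵥ B}

/-- The polar set `{y | ⟪x, y⟫ ≤ 1 for all x ∈ K}`. -/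
def polarBody {n : ℕ} (K : Set (Euc n)) : Set (Euc n) := {y | ∀ x ∈ K, ⟪x, y⟫ ≤ 1}

/-- An origin symmetric convex body: compact, convex, nonempty interior, `K = -K`. -/
def IsSymmConvexBody {n : ℕ} (K : Set (Euc n)) : Prop :=
  IsCompact K ∧ Convex ℝ K ∧ (interior K).Nonempty ∧ ∀ x ∈ K, -x ∈ K

variable {n : ℕ}

theorem convex_polarBody (K : Set (Euc n)) : Convex ℝ (polarBody K) := by
  intro y hy y' hy' a b ha hb hab x hx
  rw [inner_add_right, real_inner_smul_right, real_inner_smul_right]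
  have := mul_le_mul_of_nonneg_left (hy x hx) ha
  have := mul_le_mul_of_nonneg_left (hy' x hx) hb
  linarith

theorem zero_mem_polarBody (K : Set (Euc n)) : (0 : Euc n) ∈ polarBody K := by
  intro x _; simp

theorem isClosed_polarBody (K : Set (Euc n)) : IsClosed (polarBody K) := by
  have : polarBody K = ⋂ x ∈ K, {y | ⟪x, y⟫ ≤ 1} := by
    ext y; simp [polarBody]
  rw [this]
  exact isClosed_biInter fun x _ => isClosed_le (by fun_prop) continuous_const

theorem neg_mem_polarBody {K : Set (Euc n)} (hK : ∀ x ∈ K, -x ∈ K) {y : Euc n}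
    (hy : y ∈ polarBody K) : -y ∈ polarBody K := by
  intro x hx
  have := hy (-x) (hK x hx)
  rw [inner_neg_left] at this
  rwa [inner_neg_right]

theorem abs_inner_le_of_mem_polarBody {K : Set (Euc n)} (hK : ∀ x ∈ K, -x ∈ K) {x y : Euc n}
    (hx : x ∈ K) (hy : y ∈ polarBody K) : |⟪x, y⟫| ≤ 1 := by
  refine abs_le.mpr ⟨?_, hy x hx⟩
  have := hy (-x) (hK x hx)
  rw [inner_neg_left] at this
  linarith

theorem mem_of_mem_bipolar {L : Set (Euc n)} (hc : Convex ℝ L) (hcl : IsClosed L)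
    (h0 : (0 : Euc n) ∈ L) {x : Euc n} (hx : ∀ y ∈ polarBody L, ⟪x, y⟫ ≤ 1) : x ∈ L := by
  by_contra hcon
  obtain ⟨f, u, hfu, hux⟩ := geometric_hahn_banach_closed_point hc hcl hcon
  have hu : 0 < u := by have := hfu 0 h0; simpa using this
  set w := (InnerProductSpace.toDual ℝ (Euc n)).symm f with hw
  have hwf : ∀ z, ⟪w, z⟫ = f z := fun z => InnerProductSpace.toDual_symm_apply
  have hy : u⁻¹ • w ∈ polarBody L := by
    intro z hz
    rw [real_inner_smul_right, real_inner_comm, hwf, inv_mul_le_one₀ hu]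
    exact (hfu z hz).le
  have := hx _ hy
  rw [real_inner_smul_right, real_inner_comm, hwf, inv_mul_le_one₀ hu] at this
  linarith

theorem IsSymmConvexBody.zero_mem_interior {K : Set (Euc n)} (hK : IsSymmConvexBody K) :
    (0 : Euc n) ∈ interior K := by
  obtain ⟨-, hc, ⟨x, hx⟩, hs⟩ := hK
  have hx' : -x ∈ interior K := by
    have hsub : K ⊆ -K := fun z hz => by simpa using hs z hz
    have h2 : interior K ⊆ interior (-K) := interior_mono hsub
    have := h2 hx
    have he : interior (-K) = -interior K := by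
      simpa using ((Homeomorph.neg (Euc n)).preimage_interior K).symm
    rw [he] at this
    simpa using this
  have := hc.interior hx hx' (by norm_num : (0 : ℝ) ≤ 1 / 2) (by norm_num : (0 : ℝ) ≤ 1 / 2)
    (by norm_num)
  simpa using this

theorem IsSymmConvexBody.zero_mem {K : Set (Euc n)} (hK : IsSymmConvexBody K) :
    (0 : Euc n) ∈ K := interior_subset hK.zero_mem_interior

theorem IsSymmConvexBody.polar {K : Set (Euc n)} (hK : IsSymmConvexBody K) :
    IsSymmConvexBody (polarBody K) := by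
  refine ⟨?_, convex_polarBody K, ?_, fun y hy => neg_mem_polarBody hK.2.2.2 hy⟩
  · obtain ⟨r, hr, hball⟩ := Metric.mem_nhds_iff.mp (mem_interior_iff_mem_nhds.mp hK.zero_mem_interior)
    refine Metric.isCompact_of_isClosed_isBounded (isClosed_polarBody K) ?_
    refine (Metric.isBounded_iff_subset_closedBall 0).mpr ⟨2 / r, fun y hy => ?_⟩
    rw [Metric.mem_closedBall, dist_zero_right]
    rcases eq_or_ne y 0 with rfl | hy0
    · simp only [norm_zero]; positivity
    have hn : 0 < ‖y‖ := norm_pos_iff.mpr hy0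
    have hmem : (r / 2 / ‖y‖) • y ∈ K := by
      apply hball
      rw [Metric.mem_ball, dist_zero_right, norm_smul, Real.norm_of_nonneg (by positivity),
        div_mul_cancel₀ _ hn.ne']
      linarith
    have h1 := hy _ hmem
    rw [real_inner_smul_left, real_inner_self_eq_norm_sq] at h1
    have : r / 2 / ‖y‖ * ‖y‖ ^ 2 = r / 2 * ‖y‖ := by field_simp
    rw [this] at h1
    rw [le_div_iff₀ hr]
    linarith
  · obtain ⟨R, hR, hsub⟩ := hK.1.isBounded.subset_closedBall_lt 0 0
    refine ⟨0, mem_interior_iff_mem_nhds.mpr (Metric.mem_nhds_iff.mpr ⟨R⁻¹, inv_pos.mpr hR, ?_⟩)⟩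
    intro y hy x hx
    rw [Metric.mem_ball, dist_zero_right] at hy
    have hx' := hsub hx
    rw [Metric.mem_closedBall, dist_zero_right] at hx'
    calc ⟪x, y⟫ ≤ ‖x‖ * ‖y‖ := real_inner_le_norm _ _
      _ ≤ R * R⁻¹ := mul_le_mul hx' hy.le (norm_nonneg _) hR.le
      _ = 1 := mul_inv_cancel₀ hR.ne'

theorem IsSymmConvexBody.polar_polar {K : Set (Euc n)} (hK : IsSymmConvexBody K) :
    polarBody (polarBody K) = K := by
  refine Set.Subset.antisymm (fun x hx => ?_) (fun x hx y hy => ?_)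
  · refine mem_of_mem_bipolar hK.2.1 hK.1.isClosed hK.zero_mem (fun y hy => ?_)
    rw [real_inner_comm]
    exact hx y hy
  · rw [real_inner_comm]
    exact hy x hx

theorem IsSymmConvexBody.smul {K : Set (Euc n)} (hK : IsSymmConvexBody K) {c : ℝ} (hc : 0 < c) :
    IsSymmConvexBody (c • K) := by
  refine ⟨hK.1.smul c, hK.2.1.smul c, ⟨0, ?_⟩, ?_⟩
  · rw [interior_smul₀ hc.ne']
    exact ⟨0, hK.zero_mem_interior, smul_zero c⟩
  · rintro _ ⟨x, hx, rfl⟩
    exact ⟨-x, hK.2.2.2 x hx, smul_neg c x⟩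

theorem polarBody_smul (K : Set (Euc n)) {c : ℝ} (hc : 0 < c) :
    polarBody (c • K) = c⁻¹ • polarBody K := by
  ext y
  constructor
  · intro hy
    refine ⟨c • y, fun x hx => ?_, by simp [smul_smul, hc.ne']⟩
    rw [real_inner_smul_right, ← real_inner_smul_left]
    exact hy _ ⟨x, hx, rfl⟩
  · rintro ⟨y, hy, rfl⟩ _ ⟨x, hx, rfl⟩
    simp only [real_inner_smul_left, real_inner_smul_right]
    have := hy x hx
    field_simp
    linarith

theorem coveringNumber_le {A B : Set (Euc n)} (t : Finset (Euc n))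
    (h : A ⊆ ⋃ x ∈ t, x +ᵥ B) : coveringNumber A B ≤ t.card :=
  Nat.sInf_le ⟨t, rfl, h⟩

theorem exists_cover {A B : Set (Euc n)} (hA : IsCompact A) (hB : (0 : Euc n) ∈ interior B) :
    ∃ t : Finset (Euc n), t.card = coveringNumber A B ∧ A ⊆ ⋃ x ∈ t, x +ᵥ B := by
  have hne : {k | ∃ t : Finset (Euc n), t.card = k ∧ A ⊆ ⋃ x ∈ t, x +ᵥ B}.Nonempty := by
    obtain ⟨t, ht⟩ := hA.elim_finite_subcover (fun x : Euc n => x +ᵥ interior B)
      (fun x => isOpen_interior.vadd x) (fun a _ => Set.mem_iUnion.mpr ⟨a, ⟨0, hB, by simp⟩⟩)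
    refine ⟨_, t, rfl, ht.trans ?_⟩
    exact Set.iUnion₂_mono fun x _ => Set.vadd_set_mono interior_subset
  exact Nat.sInf_mem hne

theorem coveringNumber_smul_le {A B : Set (Euc n)} (hA : IsCompact A)
    (hB : (0 : Euc n) ∈ interior B) (c : ℝ) :
    coveringNumber (c • A) (c • B) ≤ coveringNumber A B := by
  classical
  obtain ⟨t, ht, hcov⟩ := exists_cover hA hB
  rw [← ht]
  refine le_trans (coveringNumber_le (t.image (fun x => c • x)) ?_) Finset.card_image_le
  rintro _ ⟨a, ha, rfl⟩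
  obtain ⟨x, hx, b, hb, rfl⟩ := Set.mem_iUnion₂.mp (hcov ha)
  refine Set.mem_iUnion₂.mpr ⟨c • x, Finset.mem_image_of_mem _ hx, c • b, ⟨b, hb, rfl⟩, ?_⟩
  simp [smul_add]

end Vale.Agent.P126
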