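import Mathlib

/-!
Additivity over dyadic scales of separated families.
-/

namespace Vale.Agent.P126

open scoped RealInnerProductSpace

variable {V : Type*} [NormedAddCommGroup V] [InnerProductSpace ℝ V]

/-- `F` is a family in `B` separated at scale `j` by test points of `K`. -/
def ScaleSeparated (K B : Set V) (γ : ℝ) (j : ℕ) (F : Finset V) : Prop :=
  (∀ p ∈ F, p ∈ B) ∧ ∀ p ∈ F, ∀ q ∈ F, p ≠ q →
    ∃ x ∈ K, (∀ b ∈ B, |⟪x, b⟫| ≤ 2 ^ j) ∧ γ * 2 ^ j < |⟪x, p - q⟫|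

theorem weight_halving {k0 : ℕ} (hk0 : 1 ≤ k0) :
    ((2 : ℝ) ^ k0)⁻¹ ≤ 1 / 2 := by
  rw [one_div]
  gcongr
  exact le_self_pow₀ one_le_two (by omega)

theorem combine_mem {B : Set V} (hB : Convex ℝ B) (h0 : (0 : V) ∈ B) {k0 r : ℕ} (hk0 : 1 ≤ k0)
    {p b : V} (hp : p ∈ B) (hb : b ∈ B) :
    ∃ b' ∈ B, ((2 : ℝ) ^ r)⁻¹ • p + (2 * ((2 : ℝ) ^ (r + k0))⁻¹) • b
      = (2 * ((2 : ℝ) ^ r)⁻¹) • b' := by
  have h1 := weight_halving hk0
  have h2 : (2 * ((2 : ℝ) ^ k0)⁻¹) • b ∈ B :=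
    hB.smul_mem_of_zero_mem h0 hb ⟨by positivity, by linarith⟩
  refine ⟨(1 / 2 : ℝ) • p + (1 / 2 : ℝ) • ((2 * ((2 : ℝ) ^ k0)⁻¹) • b),
    hB hp h2 (by norm_num) (by norm_num) (by norm_num), ?_⟩
  rw [smul_add, smul_smul, smul_smul, smul_smul, pow_add, mul_inv]
  congr 1 <;> congr 1 <;> ring

theorem exists_product_family {K B : Set V} {γ : ℝ} (hB : Convex ℝ B) (h0 : (0 : V) ∈ B)
    {k0 : ℕ} (hk0 : 1 ≤ k0) (hγ : 4 * ((2 : ℝ) ^ k0)⁻¹ ≤ γ / 2)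
    {F : ℕ → Finset V} (hF : ∀ j, ScaleSeparated K B γ j (F j)) (n : ℕ) :
    ∀ r : ℕ, ∃ G : Finset V,
      G.card = ∏ i ∈ Finset.range n, (F (r + i * k0)).card ∧
      (∀ v ∈ G, ∃ b ∈ B, v = (2 * ((2 : ℝ) ^ r)⁻¹) • b) ∧
      ∀ v ∈ G, ∀ w ∈ G, v ≠ w → ∃ x ∈ K, γ / 2 < |⟪x, v - w⟫| := by
  classical
  induction n with
  | zero =>
    intro r
    exact ⟨{0}, by simp, fun v hv => ⟨0, h0, by simpa using hv⟩,
      fun v hv w hw hne => absurd ((Finset.mem_singleton.mp hv).trans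
        (Finset.mem_singleton.mp hw).symm) hne⟩
  | succ n ih =>
    intro r
    obtain ⟨G, hcard, hmem, hsep⟩ := ih (r + k0)
    have key : ∀ p ∈ F r, ∀ p' ∈ F r, ∀ v ∈ G, ∀ v' ∈ G, (p, v) ≠ (p', v') →
        ∃ x ∈ K, γ / 2 < |⟪x, (((2 : ℝ) ^ r)⁻¹ • p + v) - (((2 : ℝ) ^ r)⁻¹ • p' + v')⟫| := by
      intro p hp p' hp' v hv v' hv' hne
      by_cases hpp : p = p'
      · subst hpp
        obtain ⟨x, hx, hlt⟩ := hsep v hv v' hv' (fun h => hne (by rw [h]))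
        exact ⟨x, hx, by rwa [add_sub_add_left_eq_sub]⟩
      · obtain ⟨x, hx, hxb, hlt⟩ := (hF r).2 p hp p' hp' hpp
        refine ⟨x, hx, ?_⟩
        obtain ⟨b, hb, rfl⟩ := hmem v hv
        obtain ⟨b', hb', rfl⟩ := hmem v' hv'
        have hr : (0 : ℝ) < 2 ^ r := by positivity
        have h1 := abs_le.mp (hxb b hb)
        have h2 := abs_le.mp (hxb b' hb')
        simp only [inner_sub_right, inner_add_right, real_inner_smul_right] at hlt ⊢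
        rw [pow_add, mul_inv]
        generalize ⟪x, p⟫ = P at hlt ⊢
        generalize ⟪x, p'⟫ = P' at hlt ⊢
        generalize ⟪x, b⟫ = X at h1 ⊢
        generalize ⟪x, b'⟫ = Y at h2 ⊢
        have e : ((2 : ℝ) ^ r)⁻¹ * P + 2 * (((2 : ℝ) ^ r)⁻¹ * ((2 : ℝ) ^ k0)⁻¹) * X
            - (((2 : ℝ) ^ r)⁻¹ * P' + 2 * (((2 : ℝ) ^ r)⁻¹ * ((2 : ℝ) ^ k0)⁻¹) * Y)
            = ((2 : ℝ) ^ r)⁻¹ * ((P - P') + 2 * ((2 : ℝ) ^ k0)⁻¹ * (X - Y)) := by ring
        rw [e, abs_mul, abs_of_pos (inv_pos.mpr hr), lt_inv_mul_iff₀ hr]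
        have hq : 0 ≤ ((2 : ℝ) ^ k0)⁻¹ := by positivity
        have h3 : |2 * ((2 : ℝ) ^ k0)⁻¹ * (X - Y)| ≤ γ / 2 * 2 ^ r := by
          rw [abs_mul, abs_of_nonneg (by positivity : (0 : ℝ) ≤ 2 * ((2 : ℝ) ^ k0)⁻¹)]
          calc 2 * ((2 : ℝ) ^ k0)⁻¹ * |X - Y| ≤ 2 * ((2 : ℝ) ^ k0)⁻¹ * (2 * 2 ^ r) := by
                gcongr
                exact abs_le.mpr ⟨by linarith, by linarith⟩
            _ = 4 * ((2 : ℝ) ^ k0)⁻¹ * 2 ^ r := by ring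
            _ ≤ γ / 2 * 2 ^ r := by gcongr
        have h4 := abs_add_le ((P - P') + 2 * ((2 : ℝ) ^ k0)⁻¹ * (X - Y))
          (-(2 * ((2 : ℝ) ^ k0)⁻¹ * (X - Y)))
        rw [add_neg_cancel_right, abs_neg] at h4
        linarith
    have hγ0 : 0 ≤ γ / 2 := le_trans (by positivity) hγ
    refine ⟨(F r ×ˢ G).image (fun z => ((2 : ℝ) ^ r)⁻¹ • z.1 + z.2), ?_, ?_, ?_⟩
    · rw [Finset.card_image_of_injOn, Finset.card_product, hcard, Finset.prod_range_succ']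
      · rw [mul_comm]
        congr 1
        · refine Finset.prod_congr rfl fun i _ => ?_
          congr 2
          ring
        · congr 2
          ring
      · rintro ⟨p, v⟩ hz ⟨p', v'⟩ hz' he
        simp only [Finset.coe_product, Set.mem_prod, Finset.mem_coe] at hz hz'
        by_contra hne
        obtain ⟨x, -, hlt⟩ := key p hz.1 p' hz'.1 v hz.2 v' hz'.2 hne
        simp only at he
        rw [he, sub_self, inner_zero_right, abs_zero] at hlt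
        linarith
    · simp only [Finset.mem_image, Finset.mem_product]
      rintro _ ⟨⟨p, v⟩, ⟨hp, hv⟩, rfl⟩
      obtain ⟨b, hb, rfl⟩ := hmem v hv
      exact combine_mem hB h0 hk0 ((hF r).1 p hp) hb
    · simp only [Finset.mem_image, Finset.mem_product]
      rintro _ ⟨⟨p, v⟩, ⟨hp, hv⟩, rfl⟩ _ ⟨⟨p', v'⟩, ⟨hp', hv'⟩, rfl⟩ hne
      exact key p hp p' hp' v hv v' hv' (fun h => hne (by rw [h]))

theorem prod_card_le {K B : Set V} {γ ε : ℝ} (hB : Convex ℝ B) (h0 : (0 : V) ∈ B)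
    {k0 : ℕ} (hk0 : 1 ≤ k0) (hγ : 4 * ((2 : ℝ) ^ k0)⁻¹ ≤ γ / 2) (hε : 8 * ε ≤ γ)
    {T : Finset V} (hT : ∀ b ∈ B, ∃ c ∈ T, ∀ x ∈ K, |⟪x, b - c⟫| ≤ ε)
    {F : ℕ → Finset V} (hF : ∀ j, ScaleSeparated K B γ j (F j)) (n r : ℕ) :
    ∏ i ∈ Finset.range n, (F (r + i * k0)).card ≤ T.card := by
  classical
  obtain ⟨G, hcard, hmem, hsep⟩ := exists_product_family hB h0 hk0 hγ hF n r
  rw [← hcard]
  choose! bv hbv hveq using hmem
  choose! ct hct hctx using hT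
  refine Finset.card_le_card_of_injOn (fun v => ct (bv v)) (fun v hv => hct _ (hbv v hv)) ?_
  intro v hv w hw he
  by_contra hne
  obtain ⟨x, hx, hlt⟩ := hsep v hv w hw hne
  have h1 := hctx _ (hbv v hv) x hx
  have h2 := hctx _ (hbv w hw) x hx
  simp only at he
  rw [he] at h1
  rw [hveq v hv, hveq w hw] at hlt
  simp only [inner_sub_right, real_inner_smul_right] at hlt h1 h2
  have hr : (1 : ℝ) ≤ 2 ^ r := one_le_pow₀ one_le_two
  have hr' : ((2 : ℝ) ^ r)⁻¹ ≤ 1 := inv_le_one_of_one_le₀ hr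
  have h3 := abs_le.mp h1
  have h4 := abs_le.mp h2
  rw [← mul_sub, abs_mul, abs_of_nonneg (by positivity : (0 : ℝ) ≤ 2 * ((2 : ℝ) ^ r)⁻¹)] at hlt
  have h5 : |⟪x, bv v⟫ - ⟪x, bv w⟫| ≤ 2 * ε := abs_le.mpr ⟨by linarith, by linarith⟩
  have h6 : 2 * ((2 : ℝ) ^ r)⁻¹ * |⟪x, bv v⟫ - ⟪x, bv w⟫| ≤ 2 * 1 * (2 * ε) := by
    gcongr
  linarith

/-- Separated nets at all dyadic scales. -/
theorem exists_separated_nets {K B : Set V} {γ ε : ℝ} (hB : Convex ℝ B) (h0 : (0 : V) ∈ B)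
    {k0 : ℕ} (hk0 : 1 ≤ k0) (hγ : 4 * ((2 : ℝ) ^ k0)⁻¹ ≤ γ / 2) (hε : 8 * ε ≤ γ)
    {T : Finset V} (hT : ∀ b ∈ B, ∃ c ∈ T, ∀ x ∈ K, |⟪x, b - c⟫| ≤ ε) :
    ∃ F : ℕ → Finset V, (∀ j, ScaleSeparated K B γ j (F j)) ∧
      ∀ j, (F j).Nonempty ∧ (F j).card ≤ T.card ∧ ∀ b ∈ B, ∃ p ∈ F j, p ∈ B ∧
        ∀ x ∈ K, (∀ b' ∈ B, |⟪x, b'⟫| ≤ 2 ^ j) → |⟪x, b - p⟫| ≤ γ * 2 ^ j := by
  classical
  have hbound : ∀ j (F : Finset V), ScaleSeparated K B γ j F → F.card ≤ T.card := by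
    intro j F hF
    have hFam : ∀ i, ScaleSeparated K B γ i (Function.update (fun _ => (∅ : Finset V)) j F i) := by
      intro i
      rcases eq_or_ne i j with rfl | h
      · simpa using hF
      · rw [Function.update_of_ne h]
        exact ⟨by simp, by simp⟩
    have := prod_card_le hB h0 hk0 hγ hε hT hFam 1 j
    simpa using this
  have hex : ∀ j, ∃ F, ScaleSeparated K B γ j F ∧
      ∀ F', ScaleSeparated K B γ j F' → F'.card ≤ F.card := by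
    intro j
    set P : ℕ → Prop := fun m => ∃ F, ScaleSeparated K B γ j F ∧ F.card = m with hP
    have h1 : P 0 := ⟨∅, ⟨by simp, by simp⟩, rfl⟩
    obtain ⟨F, hF, hFc⟩ := Nat.findGreatest_spec (Nat.zero_le T.card) h1
    refine ⟨F, hF, fun F' hF' => ?_⟩
    rw [hFc]
    exact Nat.le_findGreatest (hbound j F' hF') ⟨F', hF', rfl⟩
  choose F hF hmax using hex
  have hnet : ∀ j, ∀ b ∈ B, ∃ p ∈ F j,
      ∀ x ∈ K, (∀ b' ∈ B, |⟪x, b'⟫| ≤ 2 ^ j) → |⟪x, b - p⟫| ≤ γ * 2 ^ j := by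
    intro j b hb
    by_contra hcon
    push_neg at hcon
    have hbF : b ∉ F j := fun hbF => by
      obtain ⟨x, _, _, hlt⟩ := hcon b hbF
      rw [sub_self, inner_zero_right, abs_zero] at hlt
      have hγ0 : 0 ≤ γ / 2 := le_trans (by positivity) hγ
      have := mul_nonneg (by linarith : (0 : ℝ) ≤ γ) (by positivity : (0 : ℝ) ≤ 2 ^ j)
      linarith
    have hsep : ScaleSeparated K B γ j (insert b (F j)) := by
      refine ⟨fun p hp => ?_, fun p hp q hq hne => ?_⟩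
      · rcases Finset.mem_insert.mp hp with rfl | hp
        · exact hb
        · exact (hF j).1 p hp
      · rcases Finset.mem_insert.mp hp with rfl | hp' <;>
          rcases Finset.mem_insert.mp hq with rfl | hq'
        · exact absurd rfl hne
        · exact hcon q hq'
        · obtain ⟨x, hx, hxb, hlt⟩ := hcon p hp'
          exact ⟨x, hx, hxb, by rwa [← neg_sub q p, inner_neg_right, abs_neg]⟩
        · exact (hF j).2 p hp' q hq' hne
    have := hmax j _ hsep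
    rw [Finset.card_insert_of_notMem hbF] at this
    omega
  have hne : ∀ j, (F j).Nonempty := fun j => by
    obtain ⟨p, hp, -⟩ := hnet j 0 h0
    exact ⟨p, hp⟩
  refine ⟨F, hF, fun j => ⟨hne j, hbound j _ (hF j), fun b hb => ?_⟩⟩
  obtain ⟨p, hp, h⟩ := hnet j b hb
  exact ⟨p, hp, (hF j).1 p hp, h⟩

/-- Nets at all dyadic scales whose log-cardinalities add up. -/
theorem exists_scale_nets {K B : Set V} {γ ε : ℝ} (hB : Convex ℝ B) (h0 : (0 : V) ∈ B)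
    {k0 : ℕ} (hk0 : 1 ≤ k0) (hγ : 4 * ((2 : ℝ) ^ k0)⁻¹ ≤ γ / 2) (hε : 8 * ε ≤ γ)
    {T : Finset V} (hT : ∀ b ∈ B, ∃ c ∈ T, ∀ x ∈ K, |⟪x, b - c⟫| ≤ ε) :
    ∃ F : ℕ → Finset V,
      (∀ j, (F j).Nonempty ∧ (F j).card ≤ T.card ∧ ∀ b ∈ B, ∃ p ∈ F j, p ∈ B ∧
        ∀ x ∈ K, (∀ b' ∈ B, |⟪x, b'⟫| ≤ 2 ^ j) → |⟪x, b - p⟫| ≤ γ * 2 ^ j) ∧
      ∀ n, ∑ j ∈ Finset.range (k0 * n), Real.log ((F j).card) ≤ k0 * Real.log T.card := by
  classical
  obtain ⟨F, hF, hF'⟩ := exists_separated_nets hB h0 hk0 hγ hε hT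
  have hne : ∀ j, (F j).Nonempty := fun j => (hF' j).1
  refine ⟨F, hF', fun n => ?_⟩
  have hsplit : ∀ f : ℕ → ℝ, ∑ j ∈ Finset.range (k0 * n), f j
      = ∑ r ∈ Finset.range k0, ∑ i ∈ Finset.range n, f (r + i * k0) := by
    intro f
    rw [Finset.sum_comm]
    clear * -
    induction n with
    | zero => simp
    | succ n ih =>
      rw [Finset.sum_range_succ, ← ih, Nat.mul_succ, Finset.sum_range_add]
      congr 1
      exact Finset.sum_congr rfl fun i _ => by rw [add_comm i, mul_comm n k0]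
  rw [hsplit]
  calc ∑ r ∈ Finset.range k0, ∑ i ∈ Finset.range n, Real.log ((F (r + i * k0)).card)
      ≤ ∑ _r ∈ Finset.range k0, Real.log T.card := by
        refine Finset.sum_le_sum fun r _ => ?_
        rw [← Real.log_prod]
        · rw [← Nat.cast_prod]
          refine Real.log_le_log ?_ (by exact_mod_cast prod_card_le hB h0 hk0 hγ hε hT hF n r)
          exact_mod_cast Finset.prod_pos fun i _ => (hne _).card_pos
        · exact fun i _ => Nat.cast_ne_zero.mpr (hne _).card_pos.ne'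
    _ = k0 * Real.log T.card := by simp

end Vale.Agent.P126
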