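import Mathlib

/-!
Covering of a bounded body by exponential tilts of a weight vector on witnesses.
-/

namespace Vale.Agent.P126

open scoped RealInnerProductSpace

variable {V : Type*} [NormedAddCommGroup V] [InnerProductSpace ℝ V]
variable {ι : Type*} [Fintype ι]

/-- A probability weight with positive entries. -/
def IsWeight (ν : ι → ℝ) : Prop := (∀ i, 0 < ν i) ∧ ∑ i, ν i = 1

/-- The logarithmic moment of the witnesses `g` at `s` and `b`. -/
noncomputable def logMoment (ν : ι → ℝ) (g : ι → V) (s : ℝ) (b : V) : ℝ :=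
  Real.log (∑ i, ν i * Real.exp (s * ⟪g i, b⟫))

/-- `u` is dominated on `B` by the weight `ν` at tolerance `a` and slack `Φ`. -/
def Dominated (B : Set V) (g : ι → V) (ν : ι → ℝ) (u : V) (a Φ : ℝ) : Prop :=
  ∀ b ∈ B, ∀ s : ℝ, 0 ≤ s → s * (⟪u, b⟫ - a) ≤ Φ + logMoment ν g s b

theorem moment_pos [Nonempty ι] {ν : ι → ℝ} (hν : IsWeight ν) (g : ι → V) (s : ℝ) (b : V) :
    0 < ∑ i, ν i * Real.exp (s * ⟪g i, b⟫) :=
  Finset.sum_pos (fun i _ => mul_pos (hν.1 i) (Real.exp_pos _)) Finset.univ_nonempty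

theorem logMoment_zero {ν : ι → ℝ} (hν : IsWeight ν) (g : ι → V) (b : V) :
    logMoment ν g 0 b = 0 := by
  simp [logMoment, hν.2]

theorem logMoment_le_shift [Nonempty ι] {ν : ι → ℝ} (hν : IsWeight ν) {g : ι → V} {s t D : ℝ}
    {b c : V} (h : ∀ i, s * ⟪g i, b⟫ ≤ t * ⟪g i, c⟫ + D) :
    logMoment ν g s b ≤ logMoment ν g t c + D := by
  have h0 := moment_pos hν g t c
  unfold logMoment
  rw [← Real.log_exp D, ← Real.log_mul h0.ne' (Real.exp_pos _).ne']
  refine Real.log_le_log (moment_pos hν g s b) ?_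
  rw [Finset.sum_mul]
  refine Finset.sum_le_sum fun i _ => ?_
  rw [mul_assoc, ← Real.exp_add]
  exact mul_le_mul_of_nonneg_left (Real.exp_le_exp.mpr (h i)) (hν.1 i).le

/-- The weight `ν` tilted along `(s, b)`. -/
noncomputable def tiltWeight (ν : ι → ℝ) (g : ι → V) (s : ℝ) (b : V) (i : ι) : ℝ :=
  ν i * Real.exp (s * ⟪g i, b⟫) / ∑ j, ν j * Real.exp (s * ⟪g j, b⟫)

theorem tiltWeight_isWeight [Nonempty ι] {ν : ι → ℝ} (hν : IsWeight ν) (g : ι → V) (s : ℝ)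
    (b : V) : IsWeight (tiltWeight ν g s b) := by
  have h := moment_pos hν g s b
  refine ⟨fun i => div_pos (mul_pos (hν.1 i) (Real.exp_pos _)) h, ?_⟩
  simp only [tiltWeight]
  rw [← Finset.sum_div, div_self h.ne']

theorem logMoment_tilt [Nonempty ι] {ν : ι → ℝ} (hν : IsWeight ν) (g : ι → V) (s t : ℝ)
    (β b c : V) (hc : (s + t) • c = s • β + t • b) :
    logMoment ν g (s + t) c = logMoment ν g s β + logMoment (tiltWeight ν g s β) g t b := by
  have h1 := moment_pos hν g s β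
  have h2 := moment_pos (tiltWeight_isWeight hν g s β) g t b
  unfold logMoment
  rw [← Real.log_mul h1.ne' h2.ne']
  congr 1
  rw [Finset.mul_sum]
  refine Finset.sum_congr rfl fun i _ => ?_
  have e : (s + t) * ⟪g i, c⟫ = s * ⟪g i, β⟫ + t * ⟪g i, b⟫ := by
    rw [← real_inner_smul_right, hc, inner_add_right, real_inner_smul_right,
      real_inner_smul_right]
  rw [e, Real.exp_add, tiltWeight]
  field_simp

theorem Dominated.tilt [Nonempty ι] {B : Set V} (hB : Convex ℝ B) {g : ι → V} {ν : ι → ℝ}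
    (hν : IsWeight ν) {u β : V} {a Φ D s : ℝ} (hg : Dominated B g ν u a Φ) (hβ : β ∈ B)
    (hs : 0 < s) (hD : D ≤ s * (⟪u, β⟫ - a) - logMoment ν g s β) :
    Dominated B g (tiltWeight ν g s β) u a (Φ - D) := by
  intro b hb t ht
  have hst : 0 < s + t := by linarith
  set c := (s / (s + t)) • β + (t / (s + t)) • b with hc
  have hcB : c ∈ B := hB hβ hb (by positivity) (by positivity) (by field_simp)
  have hce : (s + t) • c = s • β + t • b := by
    rw [hc, smul_add, smul_smul, smul_smul, mul_div_cancel₀ _ hst.ne', mul_div_cancel₀ _ hst.ne']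
  have h := hg c hcB (s + t) hst.le
  rw [logMoment_tilt hν g s t β b c hce] at h
  have e : (s + t) * ⟪u, c⟫ = s * ⟪u, β⟫ + t * ⟪u, b⟫ := by
    rw [← real_inner_smul_right, hce, inner_add_right, real_inner_smul_right,
      real_inner_smul_right]
  have e' : (s + t) * (⟪u, c⟫ - a) = s * (⟪u, β⟫ - a) + t * (⟪u, b⟫ - a) := by
    rw [mul_sub, e]; ring
  linarith

/-- Either tolerance can be relaxed, or some tilt from a finite list lowers the slack. -/
theorem violator [Nonempty ι] {B S : Set V} {g β : ι → V} {γ δ q σ a Φ : ℝ} {ν : ι → ℝ}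
    (hν : IsWeight ν) (hg : ∀ i, g i ∈ S) (hbd : ∀ v ∈ S, ∀ b ∈ B, |⟪v, b⟫| ≤ 1)
    (hβ : ∀ i, β i ∈ B)
    (hnet : ∀ b ∈ B, ∃ i, ∀ v ∈ S, |⟪v, b⟫ - ⟪v, β i⟫| ≤ γ)
    (hδ : 0 < δ) (hγδ : 4 * γ ≤ δ) (hq : 0 < q) (hσ : 6 * σ = q) (ha0 : 0 ≤ a) (ha1 : a ≤ 1)
    {T : ℕ} (hT : 2 * Φ ≤ T * (δ * σ)) {u : V} (hu : u ∈ S) (hdom : Dominated B g ν u a Φ)
    (hnot : ¬ Dominated B g ν u (a + δ) q) :
    ∃ i, ∃ t ∈ Finset.Icc 1 T,
      q / 2 ≤ t * σ * (⟪u, β i⟫ - a) - logMoment ν g (t * σ) (β i) := by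
  simp only [Dominated, not_forall, not_le] at hnot
  obtain ⟨b, hb, s, hs, hlt⟩ := hnot
  obtain ⟨i, hi⟩ := hnet b hb
  have hσ0 : 0 < σ := by linarith
  have hu1 := abs_le.mp (hi u hu)
  have h1 : logMoment ν g s (β i) ≤ logMoment ν g s b + s * γ := by
    refine logMoment_le_shift hν fun j => ?_
    have := (abs_le.mp (hi (g j) (hg j))).1
    have := mul_le_mul_of_nonneg_left (by linarith : ⟪g j, β i⟫ ≤ ⟪g j, b⟫ + γ) hs
    linarith
  have h2 := hdom (β i) (hβ i) s hs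
  have h3 := mul_le_mul_of_nonneg_left (by linarith : ⟪u, b⟫ ≤ ⟪u, β i⟫ + γ) hs
  have h4 := mul_le_mul_of_nonneg_left hγδ hs
  have hsd : s * δ ≤ T * σ * δ := by linarith
  have hsT : s ≤ T * σ := le_of_mul_le_mul_right hsd hδ
  have hmain : q < s * (⟪u, β i⟫ - a) - logMoment ν g s (β i) := by
    have := mul_nonneg hs hδ.le
    linarith
  set t := ⌊s / σ⌋₊ with ht
  have ht1 : t * σ ≤ s := by
    rw [← le_div_iff₀ hσ0]; exact Nat.floor_le (by positivity)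
  have ht2 : s < (t + 1) * σ := by
    rw [← div_lt_iff₀ hσ0]; exact Nat.lt_floor_add_one _
  have ht3 : t ≤ T := Nat.floor_le_of_le (by rw [div_le_iff₀ hσ0]; exact hsT)
  have h5 : logMoment ν g (t * σ) (β i) ≤ logMoment ν g s (β i) + σ := by
    refine logMoment_le_shift hν fun j => ?_
    have hj := abs_le.mp (hbd (g j) (hg j) (β i) (hβ i))
    have := mul_le_mul_of_nonneg_left hj.1 (by linarith : 0 ≤ s - t * σ)
    linarith
  have hu2 := abs_le.mp (hbd u hu (β i) (hβ i))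
  have h6 : (s - t * σ) * (⟪u, β i⟫ - a) ≤ σ * 2 := by
    calc (s - t * σ) * (⟪u, β i⟫ - a) ≤ (s - t * σ) * 2 :=
          mul_le_mul_of_nonneg_left (by linarith) (by linarith)
      _ ≤ σ * 2 := by linarith
  have hgoal : q / 2 ≤ t * σ * (⟪u, β i⟫ - a) - logMoment ν g (t * σ) (β i) := by linarith
  refine ⟨i, t, Finset.mem_Icc.mpr ⟨?_, ht3⟩, hgoal⟩
  rcases Nat.eq_zero_or_pos t with h0 | h0
  · rw [h0, Nat.cast_zero, zero_mul, logMoment_zero hν] at hgoal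
    linarith
  · exact h0

/-- All dominated points can be served by a list of at most `N` centres. -/
def Capturable (B S : Set V) (g : ι → V) (P : V → V → Prop) (Φ a : ℝ) (N : ℕ) : Prop :=
  ∀ ν, IsWeight ν → ∃ M : Finset V, M.card ≤ N ∧
    ∀ u ∈ S, Dominated B g ν u a Φ → ∃ m ∈ M, P u m

theorem capturable_phase [Nonempty ι] {B S : Set V} {g β : ι → V} {γ δ q σ a : ℝ}
    {P : V → V → Prop} {N : ℕ} (hB : Convex ℝ B) (hg : ∀ i, g i ∈ S)
    (hbd : ∀ v ∈ S, ∀ b ∈ B, |⟪v, b⟫| ≤ 1) (hβ : ∀ i, β i ∈ B)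
    (hnet : ∀ b ∈ B, ∃ i, ∀ v ∈ S, |⟪v, b⟫ - ⟪v, β i⟫| ≤ γ)
    (hδ : 0 < δ) (hγδ : 4 * γ ≤ δ) (hq : 0 < q) (hσ : 6 * σ = q) (ha0 : 0 ≤ a) (ha1 : a ≤ 1)
    (T : ℕ) (hnext : Capturable B S g P q (a + δ) N) :
    ∀ n : ℕ, (n : ℝ) * q ≤ T * (δ * σ) →
      Capturable B S g P (n * (q / 2)) a (N * (Fintype.card ι * T + 1) ^ n) := by
  classical
  intro n
  induction n with
  | zero =>
    intro _ ν hν
    obtain ⟨M, hM, hMu⟩ := hnext ν hν
    refine ⟨M, by simpa using hM, fun u hu hd => hMu u hu fun b hb s hs => ?_⟩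
    have := hd b hb s hs
    have := mul_nonneg hs hδ.le
    simp only [Nat.cast_zero, zero_mul] at *
    linarith
  | succ n ih =>
    intro hn ν hν
    push_cast at hn
    obtain ⟨M₁, hM₁, hM₁u⟩ := hnext ν hν
    set f : ι × ℕ → ι → ℝ := fun w => tiltWeight ν g (w.2 * σ) (β w.1) with hf
    choose Mf hMf hMfu using fun w => ih (by linarith) (f w) (tiltWeight_isWeight hν g _ _)
    refine ⟨M₁ ∪ (Finset.univ ×ˢ Finset.Icc 1 T).biUnion Mf, ?_, fun u hu hd => ?_⟩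
    · refine (Finset.card_union_le _ _).trans ?_
      have h1 : ((Finset.univ ×ˢ Finset.Icc 1 T).biUnion Mf).card
          ≤ Fintype.card ι * T * (N * (Fintype.card ι * T + 1) ^ n) := by
        refine (Finset.card_biUnion_le_card_mul _ _ _ fun w _ => hMf w).trans ?_
        simp
      have h2 : N ≤ N * (Fintype.card ι * T + 1) ^ n :=
        Nat.le_mul_of_pos_right _ (by positivity)
      rw [pow_succ]
      nlinarith [h1, h2, hM₁]
    · by_cases hnot : Dominated B g ν u (a + δ) q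
      · obtain ⟨m, hm, hP⟩ := hM₁u u hu hnot
        exact ⟨m, Finset.mem_union_left _ hm, hP⟩
      · obtain ⟨i, t, ht, hdrop⟩ := violator (T := T) (σ := σ) hν hg hbd hβ hnet hδ hγδ hq hσ
          ha0 ha1 (Φ := ((n + 1 : ℕ) : ℝ) * (q / 2)) (by push_cast; linarith) hu hd hnot
        have hpos : (0 : ℝ) < t * σ := by
          have := (Finset.mem_Icc.mp ht).1
          have : (1 : ℝ) ≤ t := by exact_mod_cast this
          nlinarith
        have h := hd.tilt hB hν (hβ i) hpos hdrop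
        have e : ((n + 1 : ℕ) : ℝ) * (q / 2) - q / 2 = n * (q / 2) := by push_cast; ring
        rw [e] at h
        obtain ⟨m, hm, hP⟩ := hMfu (i, t) u hu h
        exact ⟨m, Finset.mem_union_right _
          (Finset.mem_biUnion.mpr ⟨(i, t), by simp [ht], hm⟩), hP⟩

theorem logMoment_small [Nonempty ι] {ν : ι → ℝ} (hν : IsWeight ν) {g : ι → V} {s : ℝ} {b : V}
    (hs0 : 0 ≤ s) (hs1 : s ≤ 1) (h : ∀ i, |⟪g i, b⟫| ≤ 1) :
    logMoment ν g s b ≤ s * ⟪∑ i, ν i • g i, b⟫ + s ^ 2 := by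
  refine (Real.log_le_sub_one_of_pos (moment_pos hν g s b)).trans ?_
  have h1 : ∀ i, ν i * Real.exp (s * ⟪g i, b⟫)
      ≤ ν i * (1 + s * ⟪g i, b⟫ + s ^ 2) := by
    intro i
    refine mul_le_mul_of_nonneg_left ?_ (hν.1 i).le
    have ha : |s * ⟪g i, b⟫| ≤ s := by
      rw [abs_mul, abs_of_nonneg hs0]
      exact mul_le_of_le_one_right hs0 (h i)
    have h2 := (abs_le.mp (Real.abs_exp_sub_one_sub_id_le (ha.trans hs1))).2
    have h3 : (s * ⟪g i, b⟫) ^ 2 ≤ s ^ 2 := by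
      rw [← sq_abs]
      exact pow_le_pow_left₀ (abs_nonneg _) ha 2
    linarith
  have h2 := Finset.sum_le_sum fun i (_ : i ∈ Finset.univ) => h1 i
  simp only [mul_add, Finset.sum_add_distrib, ← Finset.sum_mul, hν.2] at h2
  rw [sum_inner, Finset.mul_sum]
  have e : ∀ i, s * ⟪ν i • g i, b⟫ = ν i * (s * ⟪g i, b⟫) := fun i => by
    rw [real_inner_smul_left]; ring
  simp only [e]
  linarith

theorem capturable_last [Nonempty ι] {B S : Set V} {g : ι → V} {a : ℝ}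
    (hg : ∀ i, g i ∈ S) (hbd : ∀ v ∈ S, ∀ b ∈ B, |⟪v, b⟫| ≤ 1) (hneg : ∀ b ∈ B, -b ∈ B)
    (ha : a ≤ 1 / 16) :
    Capturable B S g (fun u m => ∀ b ∈ B, |⟪u - m, b⟫| ≤ 1 / 8) (1 / 4096) a 1 := by
  intro ν hν
  refine ⟨{∑ i, ν i • g i}, by simp, fun u _ hd => ⟨_, Finset.mem_singleton_self _, ?_⟩⟩
  have key : ∀ b ∈ B, ⟪u - ∑ i, ν i • g i, b⟫ ≤ 1 / 8 := by
    intro b hb
    have h1 := hd b hb (1 / 64) (by norm_num)
    have h2 := logMoment_small hν (s := 1 / 64) (by norm_num) (by norm_num)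
      fun i => hbd (g i) (hg i) b hb
    rw [inner_sub_left]
    linarith
  intro b hb
  refine abs_le.mpr ⟨?_, key b hb⟩
  have := key (-b) (hneg b hb)
  rw [inner_neg_right] at this
  linarith

theorem capturable_chain [Nonempty ι] {B S : Set V} {g β : ι → V} (hB : Convex ℝ B)
    (hg : ∀ i, g i ∈ S) (hbd : ∀ v ∈ S, ∀ b ∈ B, |⟪v, b⟫| ≤ 1) (hneg : ∀ b ∈ B, -b ∈ B)
    (hβ : ∀ i, β i ∈ B) {k : ℕ} (hk : 1 ≤ k)
    (hnet : ∀ b ∈ B, ∃ i, ∀ v ∈ S, |⟪v, b⟫ - ⟪v, β i⟫| ≤ (256 * (k : ℝ))⁻¹)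
    {R : ℕ} (hR : 1 ≤ R) :
    ∀ j : ℕ, j ≤ k → Capturable B S g (fun u m => ∀ b ∈ B, |⟪u - m, b⟫| ≤ 1 / 8)
      ((R : ℝ) ^ j / 4096) ((128 * (k : ℝ))⁻¹ + ((k : ℝ) - j) * (32 * (k : ℝ))⁻¹)
      ((Fintype.card ι * (384 * R * k) + 1) ^ (2 * R * j)) := by
  have hkR : (1 : ℝ) ≤ k := by exact_mod_cast hk
  have hk0 : (0 : ℝ) < k := by linarith
  have hinv : ((k : ℝ))⁻¹ ≤ 1 := inv_le_one_of_one_le₀ hkR
  intro j
  induction j with
  | zero =>
    intro _
    rw [mul_zero, pow_zero, pow_zero]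
    refine capturable_last hg hbd hneg ?_
    simp only [Nat.cast_zero, sub_zero, mul_inv]
    rw [mul_comm (32 : ℝ)⁻¹, ← mul_assoc, mul_inv_cancel₀ hk0.ne', one_mul]
    linarith
  | succ j ih =>
    intro hj
    have hjR : (j : ℝ) + 1 ≤ k := by exact_mod_cast hj
    have hR0 : (0 : ℝ) < R := by exact_mod_cast hR
    have hnext := ih (by omega)
    have ha0 : (0 : ℝ) ≤ (128 * (k : ℝ))⁻¹ + ((k : ℝ) - (j + 1 : ℕ)) * (32 * (k : ℝ))⁻¹ := by
      push_cast
      have : (0 : ℝ) ≤ (k : ℝ) - (j + 1) := by linarith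
      positivity
    have ha1 : (128 * (k : ℝ))⁻¹ + ((k : ℝ) - (j + 1 : ℕ)) * (32 * (k : ℝ))⁻¹ ≤ 1 := by
      have : ((k : ℝ) - (j + 1 : ℕ)) * (32 * (k : ℝ))⁻¹ ≤ k * (32 * (k : ℝ))⁻¹ := by
        push_cast
        exact mul_le_mul_of_nonneg_right (by linarith) (by positivity)
      simp only [mul_inv] at this ⊢
      rw [mul_comm (32 : ℝ)⁻¹, ← mul_assoc (k : ℝ), mul_inv_cancel₀ hk0.ne', one_mul] at this
      linarith
    have hphase := capturable_phase (σ := (R : ℝ) ^ j / 4096 / 6)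
      (a := (128 * (k : ℝ))⁻¹ + ((k : ℝ) - (j + 1 : ℕ)) * (32 * (k : ℝ))⁻¹)
      (δ := (32 * (k : ℝ))⁻¹) (q := (R : ℝ) ^ j / 4096)
      hB hg hbd hβ hnet (by positivity)
      (by simp only [mul_inv]; linarith [inv_nonneg.mpr hk0.le])
      (by positivity) (by ring) ha0 ha1 (384 * R * k)
      (by convert hnext using 1; push_cast; ring)
      (2 * R) (le_of_eq (by push_cast; field_simp; ring))
    convert hphase using 1
    · push_cast; rw [pow_succ]; ring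
    · rw [← pow_add]; congr 1

theorem log_card_bound {N k R : ℕ} {L : ℝ} (hN : 2 ≤ N) (hL : L = Real.log N) (hk : 1 ≤ k)
    (hR : R = ⌈(4096 * (1 + L)) ^ ((k : ℝ)⁻¹)⌉₊) :
    Real.log (((N * (384 * R * k) + 1) ^ (2 * R * k) : ℕ) : ℝ)
      ≤ 442368 * (k : ℝ) ^ 2 * (1 + L) ^ ((k : ℝ)⁻¹) * L := by
  have hkR : (1 : ℝ) ≤ k := by exact_mod_cast hk
  have hNR : (2 : ℝ) ≤ N := by exact_mod_cast hN
  have hL1 : 69 / 100 ≤ L := by
    have := Real.log_two_gt_d9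
    have := Real.log_le_log two_pos hNR
    linarith
  set e := ((k : ℝ)⁻¹) with he
  have he0 : 0 ≤ e := by positivity
  have he1 : e ≤ 1 := inv_le_one_of_one_le₀ hkR
  set y := (1 + L) ^ e with hy
  have hy1 : 1 ≤ y := Real.one_le_rpow (by linarith) he0
  have hy2 : y ≤ 1 + L := (Real.rpow_le_rpow_of_exponent_le (by linarith) he1).trans_eq
    (Real.rpow_one _)
  have hs1 : (4096 * (1 + L)) ^ e ≤ 4096 * y := by
    rw [Real.mul_rpow (by norm_num) (by linarith)]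
    refine mul_le_mul_of_nonneg_right ?_ (by linarith)
    exact (Real.rpow_le_rpow_of_exponent_le (by norm_num) he1).trans_eq (Real.rpow_one _)
  have hR2 : (R : ℝ) ≤ 8192 * y := by
    rw [hR]
    have := Nat.ceil_lt_add_one (Real.rpow_nonneg (by linarith : (0 : ℝ) ≤ 4096 * (1 + L)) e)
    linarith
  have hR1 : (1 : ℝ) ≤ R := by
    rw [hR, Nat.one_le_cast, Nat.one_le_ceil_iff]
    exact Real.rpow_pos_of_pos (by linarith) e
  push_cast
  rw [Real.log_pow]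
  push_cast
  have hW : Real.log ((N : ℝ) * (384 * R * k) + 1) ≤ k * (27 * L) := by
    have h1 : (N : ℝ) * (384 * R * k) + 1 ≤ 8388608 * N * y * k := by
      have h2 : (1 : ℝ) ≤ N * y * k :=
        one_le_mul_of_one_le_of_one_le (one_le_mul_of_one_le_of_one_le (by linarith) hy1) hkR
      have h3 : (N : ℝ) * (384 * R * k) ≤ N * (384 * (8192 * y) * k) := by gcongr
      linarith
    refine (Real.log_le_log (by positivity) h1).trans ?_
    rw [Real.log_mul (by positivity) (by positivity), Real.log_mul (by positivity) (by positivity),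
      Real.log_mul (by positivity) (by positivity), ← hL]
    have h23 : Real.log 8388608 ≤ 16 := by
      have e2 : (8388608 : ℝ) = 2 ^ 23 := by norm_num
      rw [e2, Real.log_pow]
      have := Real.log_two_lt_d9
      push_cast
      linarith
    have := Real.log_le_sub_one_of_pos (by linarith : (0 : ℝ) < y)
    have := Real.log_le_sub_one_of_pos (by linarith : (0 : ℝ) < (k : ℝ))
    have := le_mul_of_one_le_left (by linarith : (0 : ℝ) ≤ 16 + 2 * L) hkR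
    have := mul_le_mul_of_nonneg_left (by linarith : 17 + 2 * L ≤ 27 * L)
      (by linarith : (0 : ℝ) ≤ k)
    linarith
  calc 2 * (R : ℝ) * k * Real.log ((N : ℝ) * (384 * R * k) + 1)
      ≤ 2 * (R : ℝ) * k * (k * (27 * L)) := mul_le_mul_of_nonneg_left hW (by positivity)
    _ ≤ 2 * (8192 * y) * k * (k * (27 * L)) := by gcongr
    _ = 442368 * (k : ℝ) ^ 2 * y * L := by ring

/-- A bounded compact set is covered, in the norm dual to `B`, by few balls of radius `1/8`. -/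
theorem bounded_cover {B S : Set V} (hB : Convex ℝ B) (h0 : (0 : V) ∈ B)
    (hneg : ∀ b ∈ B, -b ∈ B) (hS : IsCompact S) (hS0 : (0 : V) ∈ S)
    (hbd : ∀ v ∈ S, ∀ b ∈ B, |⟪v, b⟫| ≤ 1) {F : Finset V} (hF : F.Nonempty) {k : ℕ} (hk : 1 ≤ k)
    (hnet : ∀ b ∈ B, ∃ p ∈ F, p ∈ B ∧ ∀ v ∈ S, |⟪v, b⟫ - ⟪v, p⟫| ≤ (256 * (k : ℝ))⁻¹) :
    ∃ M : Finset V, (∀ u ∈ S, ∃ m ∈ M, ∀ b ∈ B, |⟪u - m, b⟫| ≤ 1 / 8) ∧
      Real.log M.card
        ≤ 442368 * (k : ℝ) ^ 2 * (1 + Real.log F.card) ^ ((k : ℝ)⁻¹) * Real.log F.card := by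
  classical
  have hkR : (1 : ℝ) ≤ k := by exact_mod_cast hk
  have hγ : (256 * (k : ℝ))⁻¹ ≤ 1 / 256 := by
    rw [one_div]; gcongr; linarith
  by_cases hone : F.card = 1
  · obtain ⟨p₀, rfl⟩ := Finset.card_eq_one.mp hone
    refine ⟨{0}, fun u hu => ⟨0, Finset.mem_singleton_self _, fun b hb => ?_⟩, by simp⟩
    obtain ⟨p, hp, -, h1⟩ := hnet b hb
    obtain ⟨p', hp', -, h2⟩ := hnet 0 h0
    rw [Finset.mem_singleton] at hp hp'
    subst hp hp'
    have h3 := abs_le.mp (h1 u hu)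
    have h4 := abs_le.mp (h2 u hu)
    rw [inner_zero_right] at h4
    rw [sub_zero, abs_le]
    constructor <;> linarith
  set F' := F.filter (· ∈ B) with hF'
  have hF'ne : F'.Nonempty := by
    obtain ⟨p, hp, hpB, -⟩ := hnet 0 h0
    exact ⟨p, Finset.mem_filter.mpr ⟨hp, hpB⟩⟩
  have : Nonempty F' := hF'ne.to_subtype
  set L := Real.log F.card with hL
  have hN2 : 2 ≤ F.card := by
    have := hF.card_pos
    omega
  have hcardle : Fintype.card F' ≤ F.card := by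
    rw [Fintype.card_coe]; exact Finset.card_filter_le _ _
  have hL0 : 0 ≤ L := Real.log_natCast_nonneg _
  set R := ⌈(4096 * (1 + L)) ^ ((k : ℝ)⁻¹)⌉₊ with hR
  have hR1 : 1 ≤ R := Nat.one_le_ceil_iff.mpr (Real.rpow_pos_of_pos (by linarith) _)
  have hex : ∀ i : F', ∃ v ∈ S, ∀ w ∈ S, ⟪w, (i : V)⟫ ≤ ⟪v, (i : V)⟫ := fun i =>
    hS.exists_isMaxOn (f := fun w : V => ⟪w, (i : V)⟫) ⟨0, hS0⟩
      (by fun_prop : Continuous fun w : V => ⟪w, (i : V)⟫).continuousOn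
  choose g hg hgmax using hex
  have hβ : ∀ i : F', (i : V) ∈ B := fun i => (Finset.mem_filter.mp i.2).2
  have hnet' : ∀ b ∈ B, ∃ i : F', ∀ v ∈ S, |⟪v, b⟫ - ⟪v, (i : V)⟫| ≤ (256 * (k : ℝ))⁻¹ := by
    intro b hb
    obtain ⟨p, hp, hpB, h⟩ := hnet b hb
    exact ⟨⟨p, Finset.mem_filter.mpr ⟨hp, hpB⟩⟩, h⟩
  set ν : F' → ℝ := fun _ => (Fintype.card F' : ℝ)⁻¹ with hνdef
  have hcard0 : (0 : ℝ) < Fintype.card F' := by exact_mod_cast Fintype.card_pos
  have hν : IsWeight ν := by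
    refine ⟨fun i => inv_pos.mpr hcard0, ?_⟩
    rw [hνdef, Finset.sum_const, Finset.card_univ, nsmul_eq_mul, mul_inv_cancel₀ hcard0.ne']
  obtain ⟨M, hMc, hM⟩ := capturable_chain hB hg hbd hneg hβ hk hnet' hR1 k le_rfl ν hν
  refine ⟨M, fun u hu => hM u hu ?_, ?_⟩
  · intro b hb s hs
    obtain ⟨i, hi⟩ := hnet' b hb
    have h1 := abs_le.mp (hi u hu)
    have h2 := abs_le.mp (hi (g i) (hg i))
    have h3 := hgmax i u hu
    have h4 : ⟪u, b⟫ ≤ ⟪g i, b⟫ + 2 * (256 * (k : ℝ))⁻¹ := by linarith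
    have h5 := mul_le_mul_of_nonneg_left h4 hs
    have h6 : s * ⟪g i, b⟫ - Real.log (Fintype.card F') ≤ logMoment ν g s b := by
      have e : s * ⟪g i, b⟫ - Real.log (Fintype.card F')
          = Real.log (ν i * Real.exp (s * ⟪g i, b⟫)) := by
        rw [Real.log_mul (hν.1 i).ne' (Real.exp_pos _).ne', Real.log_exp, hνdef, Real.log_inv]
        ring
      rw [e]
      refine Real.log_le_log (mul_pos (hν.1 i) (Real.exp_pos _)) ?_
      exact Finset.single_le_sum (f := fun j => ν j * Real.exp (s * ⟪g j, b⟫))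
        (fun j _ => (mul_pos (hν.1 j) (Real.exp_pos _)).le) (Finset.mem_univ i)
    have h7 : Real.log (Fintype.card F') ≤ L :=
      Real.log_le_log hcard0 (by exact_mod_cast hcardle)
    have h8 : 4096 * (1 + L) ≤ (R : ℝ) ^ k := by
      have h9 := pow_le_pow_left₀ (Real.rpow_nonneg (by linarith) _)
        (Nat.le_ceil ((4096 * (1 + L)) ^ ((k : ℝ)⁻¹))) k
      rwa [Real.rpow_inv_natCast_pow (by linarith) (by omega)] at h9
    have e2 : s * (128 * (k : ℝ))⁻¹ = s * (2 * (256 * (k : ℝ))⁻¹) := by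
      simp only [mul_inv]; ring
    have e3 : s * (⟪u, b⟫ - ((128 * (k : ℝ))⁻¹ + ((k : ℝ) - k) * (32 * (k : ℝ))⁻¹))
        = s * ⟪u, b⟫ - s * (128 * (k : ℝ))⁻¹ := by ring
    rw [e3]
    linarith
  · rcases Nat.eq_zero_or_pos M.card with h | h
    · rw [h, Nat.cast_zero, Real.log_zero]
      positivity
    refine le_trans (Real.log_le_log (by exact_mod_cast h) (Nat.cast_le.mpr (hMc.trans ?_)))
      (log_card_bound hN2 hL hk hR)
    gcongr

end Vale.Agent.P126
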