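import Vale.Agent.P126.Basic
import Vale.Agent.P126.Scales
import Vale.Agent.P126.Tilt

/-!
Assembly of the scales: a near-linear comparison of covering numbers.
-/

namespace Vale.Agent.P126

open Pointwise
open scoped RealInnerProductSpace

variable {V : Type*} [NormedAddCommGroup V] [InnerProductSpace ℝ V]

theorem scale_step {K B : Set V} (hK : Convex ℝ K) (hneg : ∀ x ∈ K, -x ∈ K) (j : ℕ)
    {C M : Finset V} (hC : ∀ c ∈ C, c ∈ K)
    (hCcov : ∀ x ∈ K, ∃ c ∈ C, ∀ b ∈ B, |⟪x - c, b⟫| ≤ 2 ^ (j + 1))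
    (hM : ∀ u ∈ K, (∀ b ∈ B, |⟪u, b⟫| ≤ 2 ^ j) → ∃ m ∈ M, ∀ b ∈ B, |⟪u - m, b⟫| ≤ 2 ^ j / 8) :
    ∃ C' : Finset V, (∀ c ∈ C', c ∈ K) ∧ C'.card ≤ C.card * M.card ∧
      ∀ x ∈ K, ∃ c ∈ C', ∀ b ∈ B, |⟪x - c, b⟫| ≤ 2 ^ j := by
  classical
  set cell : V × V → V → Prop := fun z x =>
    x ∈ K ∧ ∀ b ∈ B, |⟪x - (z.1 + (2 : ℝ) • z.2), b⟫| ≤ 2 ^ j / 4 with hcell
  set rep : V × V → V := fun z => if h : ∃ x, cell z x then h.choose else 0 with hrep
  refine ⟨((C ×ˢ M).filter fun z => ∃ x, cell z x).image rep, ?_, ?_, ?_⟩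
  · simp only [Finset.mem_image, Finset.mem_filter]
    rintro _ ⟨z, ⟨-, hz⟩, rfl⟩
    simp only [hrep, dif_pos hz]
    exact hz.choose_spec.1
  · exact Finset.card_image_le.trans ((Finset.card_filter_le _ _).trans
      (Finset.card_product _ _).le)
  intro x hx
  obtain ⟨c, hc, hcb⟩ := hCcov x hx
  have hy : (1 / 2 : ℝ) • x + (1 / 2 : ℝ) • (-c) ∈ K :=
    hK hx (hneg c (hC c hc)) (by norm_num) (by norm_num) (by norm_num)
  obtain ⟨m, hm, hmb⟩ := hM _ hy (fun b hb => by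
    rw [inner_add_left, real_inner_smul_left, real_inner_smul_left, inner_neg_left, mul_neg,
      ← sub_eq_add_neg, ← mul_sub, abs_mul, ← inner_sub_left,
      abs_of_nonneg (by norm_num : (0 : ℝ) ≤ 1 / 2)]
    have h := hcb b hb
    rw [pow_succ] at h
    linarith)
  have hcx : cell (c, m) x := by
    refine ⟨hx, fun b hb => ?_⟩
    have e : ⟪x - (c + (2 : ℝ) • m), b⟫
        = 2 * ⟪(1 / 2 : ℝ) • x + (1 / 2 : ℝ) • (-c) - m, b⟫ := by
      simp only [inner_sub_left, inner_add_left, real_inner_smul_left, inner_neg_left]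
      ring
    simp only
    rw [e, abs_mul, abs_two]
    have := hmb b hb
    linarith
  have hex : ∃ y, cell (c, m) y := ⟨x, hcx⟩
  refine ⟨rep (c, m), Finset.mem_image_of_mem _
    (Finset.mem_filter.mpr ⟨Finset.mem_product.mpr ⟨hc, hm⟩, hex⟩), fun b hb => ?_⟩
  have h1 := abs_le.mp (hcx.2 b hb)
  have h2 := abs_le.mp (hex.choose_spec.2 b hb)
  simp only [hrep, dif_pos hex, inner_sub_left] at h1 h2 ⊢
  have : (0 : ℝ) ≤ 2 ^ j := by positivity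
  exact abs_le.mpr ⟨by linarith, by linarith⟩

theorem scale_descent {K B : Set V} (hK : Convex ℝ K) (hneg : ∀ x ∈ K, -x ∈ K) {M : ℕ → Finset V}
    (hM : ∀ j, ∀ u ∈ K, (∀ b ∈ B, |⟪u, b⟫| ≤ 2 ^ j) →
      ∃ m ∈ M j, ∀ b ∈ B, |⟪u - m, b⟫| ≤ 2 ^ j / 8) (J : ℕ) :
    ∀ C : Finset V, (∀ c ∈ C, c ∈ K) →
      (∀ x ∈ K, ∃ c ∈ C, ∀ b ∈ B, |⟪x - c, b⟫| ≤ 2 ^ J) →
      ∃ C' : Finset V, C'.card ≤ C.card * ∏ j ∈ Finset.range J, (M j).card ∧
        ∀ x ∈ K, ∃ c ∈ C', ∀ b ∈ B, |⟪x - c, b⟫| ≤ 1 := by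
  induction J with
  | zero =>
    intro C _ hC
    exact ⟨C, by simp, by simpa using hC⟩
  | succ J ih =>
    intro C hC hCcov
    obtain ⟨C', hC', hcard, hcov⟩ := scale_step hK hneg J hC hCcov (hM J)
    obtain ⟨C'', hcard'', hcov''⟩ := ih C' hC' hcov
    refine ⟨C'', hcard''.trans ?_, hcov''⟩
    rw [Finset.prod_range_succ, mul_comm (∏ j ∈ Finset.range J, (M j).card), ← mul_assoc]
    exact Nat.mul_le_mul_right _ hcard

theorem exists_level_cover {K B : Set V} (hKc : IsCompact K) (hK0 : (0 : V) ∈ K)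
    (hB : Convex ℝ B) (hB0 : (0 : V) ∈ B) (hBneg : ∀ b ∈ B, -b ∈ B) {k : ℕ} (hk : 1 ≤ k)
    (j : ℕ) {F : Finset V} (hF : F.Nonempty)
    (hnet : ∀ b ∈ B, ∃ p ∈ F, p ∈ B ∧ ∀ x ∈ K, (∀ b' ∈ B, |⟪x, b'⟫| ≤ 2 ^ j) →
      |⟪x, b - p⟫| ≤ (256 * (k : ℝ))⁻¹ * 2 ^ j) :
    ∃ M : Finset V,
      (∀ u ∈ K, (∀ b ∈ B, |⟪u, b⟫| ≤ 2 ^ j) → ∃ m ∈ M, ∀ b ∈ B, |⟪u - m, b⟫| ≤ 2 ^ j / 8) ∧
      Real.log M.card
        ≤ 442368 * (k : ℝ) ^ 2 * (1 + Real.log F.card) ^ ((k : ℝ)⁻¹) * Real.log F.card := by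
  classical
  set c : ℝ := ((2 : ℝ) ^ j)⁻¹ with hc
  have hc0 : 0 < c := by positivity
  have hcmul : c * 2 ^ j = 1 := inv_mul_cancel₀ (by positivity)
  set K₁ : Set V := K ∩ ⋂ b ∈ B, {x | |⟪x, b⟫| ≤ 2 ^ j} with hK₁
  have hK₁mem : ∀ x, x ∈ K₁ ↔ x ∈ K ∧ ∀ b ∈ B, |⟪x, b⟫| ≤ 2 ^ j := fun x => by simp [hK₁]
  have hK₁c : IsCompact K₁ :=
    hKc.inter_right (isClosed_biInter fun b _ => isClosed_le (by fun_prop) continuous_const)
  have hS0 : (0 : V) ∈ c • K₁ := ⟨0, (hK₁mem 0).mpr ⟨hK0, fun b _ => by simp⟩, smul_zero c⟩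
  obtain ⟨M, hMcov, hMlog⟩ := bounded_cover hB hB0 hBneg (hK₁c.smul c) hS0
    (fun v hv b hb => by
      obtain ⟨x, hx, rfl⟩ := hv
      simp only [real_inner_smul_left]
      rw [abs_mul, abs_of_pos hc0, ← hcmul]
      exact mul_le_mul_of_nonneg_left (((hK₁mem x).mp hx).2 b hb) hc0.le)
    hF hk
    (fun b hb => by
      obtain ⟨p, hp, hpB, h⟩ := hnet b hb
      refine ⟨p, hp, hpB, fun v hv => ?_⟩
      obtain ⟨x, hx, rfl⟩ := hv
      obtain ⟨hxK, hxb⟩ := (hK₁mem x).mp hx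
      have h1 := h x hxK hxb
      rw [inner_sub_right] at h1
      simp only [real_inner_smul_left]
      rw [← mul_sub, abs_mul, abs_of_pos hc0]
      calc c * |⟪x, b⟫ - ⟪x, p⟫| ≤ c * ((256 * (k : ℝ))⁻¹ * 2 ^ j) := by gcongr
        _ = (256 * (k : ℝ))⁻¹ := by rw [mul_left_comm, hcmul, mul_one])
  refine ⟨M.image (fun m => ((2 : ℝ) ^ j) • m), fun u hu hub => ?_, ?_⟩
  · obtain ⟨m, hm, hmb⟩ := hMcov (c • u) ⟨u, (hK₁mem u).mpr ⟨hu, hub⟩, rfl⟩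
    refine ⟨_, Finset.mem_image_of_mem _ hm, fun b hb => ?_⟩
    have h := hmb b hb
    have e : u - ((2 : ℝ) ^ j) • m = ((2 : ℝ) ^ j) • (c • u - m) := by
      rw [smul_sub, smul_smul, mul_comm, hcmul, one_smul]
    rw [e, real_inner_smul_left, abs_mul, abs_of_nonneg (by positivity : (0 : ℝ) ≤ 2 ^ j)]
    calc (2 : ℝ) ^ j * |⟪c • u - m, b⟫| ≤ 2 ^ j * (1 / 8) := by gcongr
      _ = 2 ^ j / 8 := by ring
  · rw [Finset.card_image_of_injective _ (smul_right_injective V (by positivity : (2 : ℝ) ^ j ≠ 0))]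
    exact hMlog

theorem inverse_scale_bound (k : ℕ) (hk : 1 ≤ k) :
    4 * ((2 : ℝ) ^ (Nat.log 2 (2048 * k) + 1))⁻¹ ≤ (256 * (k : ℝ))⁻¹ / 2
      ∧ Nat.log 2 (2048 * k) + 1 ≤ 12 * k := by
  have hk0 : (0 : ℝ) < k := by exact_mod_cast hk
  constructor
  · have h1 : (2048 * k : ℕ) ≤ 2 ^ (Nat.log 2 (2048 * k) + 1) :=
      (Nat.lt_pow_succ_log_self one_lt_two _).le
    have h2 : (2048 * (k : ℝ)) ≤ (2 : ℝ) ^ (Nat.log 2 (2048 * k) + 1) := by exact_mod_cast h1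
    have h3 : ((2 : ℝ) ^ (Nat.log 2 (2048 * k) + 1))⁻¹ ≤ (2048 * (k : ℝ))⁻¹ := by gcongr
    simp only [mul_inv] at h3 ⊢
    linarith
  · have h1 : 2048 * k < 2 ^ (11 + k) := by
      have := (Nat.lt_two_pow_self : k < 2 ^ k)
      rw [pow_add]
      omega
    have := Nat.log_lt_of_lt_pow (by omega) h1
    omega

/-- The comparison in functional form. -/
theorem cover_of_dual_cover {K B : Set V} (hKc : IsCompact K) (hK : Convex ℝ K)
    (hK0 : (0 : V) ∈ K) (hKneg : ∀ x ∈ K, -x ∈ K) (hBc : IsCompact B) (hB : Convex ℝ B)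
    (hB0 : (0 : V) ∈ B) (hBneg : ∀ b ∈ B, -b ∈ B) {k : ℕ} (hk : 1 ≤ k) {T : Finset V}
    (hT : ∀ b ∈ B, ∃ c ∈ T, ∀ x ∈ K, |⟪x, b - c⟫| ≤ (2048 * (k : ℝ))⁻¹) :
    ∃ C : Finset V, (∀ x ∈ K, ∃ c ∈ C, ∀ b ∈ B, |⟪x - c, b⟫| ≤ 1) ∧
      Real.log C.card
        ≤ 5308416 * (k : ℝ) ^ 3 * Real.log T.card * (1 + Real.log T.card) ^ ((k : ℝ)⁻¹) := by
  classical
  obtain ⟨hk0γ, hk0le⟩ := inverse_scale_bound k hk
  set k0 := Nat.log 2 (2048 * k) + 1 with hk0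
  obtain ⟨F, hF, hsum⟩ := exists_scale_nets (ε := (2048 * (k : ℝ))⁻¹) hB hB0
    (by omega : 1 ≤ k0) hk0γ (by simp only [mul_inv]; linarith) hT
  choose M hM hMlog using fun j =>
    exists_level_cover hKc hK0 hB hB0 hBneg hk j (hF j).1 (hF j).2.2
  obtain ⟨R, hR⟩ := hKc.isBounded.exists_norm_le
  obtain ⟨R', hR'⟩ := hBc.isBounded.exists_norm_le
  obtain ⟨n, hn⟩ := pow_unbounded_of_one_lt (R * R') (one_lt_two : (1 : ℝ) < 2)
  have hstart : ∀ x ∈ K, ∃ c ∈ ({0} : Finset V), ∀ b ∈ B, |⟪x - c, b⟫| ≤ 2 ^ (k0 * n) := by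
    intro x hx
    refine ⟨0, Finset.mem_singleton_self _, fun b hb => ?_⟩
    rw [sub_zero]
    calc |⟪x, b⟫| ≤ ‖x‖ * ‖b‖ := abs_real_inner_le_norm _ _
      _ ≤ R * R' := mul_le_mul (hR x hx) (hR' b hb) (norm_nonneg _)
          ((norm_nonneg _).trans (hR x hx))
      _ ≤ 2 ^ n := hn.le
      _ ≤ 2 ^ (k0 * n) := pow_le_pow_right₀ one_le_two (Nat.le_mul_of_pos_left n (by omega))
  obtain ⟨C, hCcard, hCcov⟩ := scale_descent hK hKneg (M := M) hM (k0 * n) {0}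
    (by simpa using hK0) hstart
  refine ⟨C, hCcov, ?_⟩
  obtain ⟨c, hc, -⟩ := hCcov 0 hK0
  rw [Finset.card_singleton, one_mul] at hCcard
  have hMpos : ∀ j, 0 < (M j).card := fun j => by
    obtain ⟨m, hm, -⟩ := hM j 0 hK0 (fun b _ => by simp)
    exact Finset.card_pos.mpr ⟨m, hm⟩
  have h1 : Real.log C.card ≤ ∑ j ∈ Finset.range (k0 * n), Real.log ((M j).card) := by
    rw [← Real.log_prod (fun j _ => Nat.cast_ne_zero.mpr (hMpos j).ne'), ← Nat.cast_prod]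
    exact Real.log_le_log (by exact_mod_cast Finset.card_pos.mpr ⟨c, hc⟩) (by exact_mod_cast hCcard)
  set L := Real.log T.card with hL
  set y := (1 + L) ^ ((k : ℝ)⁻¹) with hy
  have hL0 : 0 ≤ L := Real.log_natCast_nonneg _
  have hy0 : 0 ≤ y := Real.rpow_nonneg (by linarith) _
  have h2 : ∀ j, Real.log ((M j).card) ≤ 442368 * (k : ℝ) ^ 2 * y * Real.log ((F j).card) := by
    intro j
    refine (hMlog j).trans ?_
    have hj0 : 0 ≤ Real.log ((F j).card) := Real.log_natCast_nonneg _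
    have hjL : Real.log ((F j).card) ≤ L :=
      Real.log_le_log (by exact_mod_cast (hF j).1.card_pos) (by exact_mod_cast (hF j).2.1)
    have hyj : (1 + Real.log ((F j).card)) ^ ((k : ℝ)⁻¹) ≤ y :=
      Real.rpow_le_rpow (by linarith) (by linarith) (by positivity)
    exact mul_le_mul_of_nonneg_right (mul_le_mul_of_nonneg_left hyj (by positivity)) hj0
  have hk0R : (k0 : ℝ) ≤ 12 * k := by exact_mod_cast hk0le
  calc Real.log C.card
      ≤ ∑ j ∈ Finset.range (k0 * n), 442368 * (k : ℝ) ^ 2 * y * Real.log ((F j).card) :=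
        h1.trans (Finset.sum_le_sum fun j _ => h2 j)
    _ = 442368 * (k : ℝ) ^ 2 * y * ∑ j ∈ Finset.range (k0 * n), Real.log ((F j).card) :=
        (Finset.mul_sum _ _ _).symm
    _ ≤ 442368 * (k : ℝ) ^ 2 * y * (12 * k * L) := by
        refine mul_le_mul_of_nonneg_left ?_ (by positivity)
        exact (hsum n).trans (mul_le_mul_of_nonneg_right hk0R hL0)
    _ = 5308416 * (k : ℝ) ^ 3 * L * y := by ring

/-- One half of the comparison, for bodies in Euclidean space. -/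
theorem log_coveringNumber_le {n : ℕ} {K L : Set (Euc n)} (hK : IsSymmConvexBody K)
    (hL : IsSymmConvexBody L) {k : ℕ} (hk : 1 ≤ k) :
    Real.log (coveringNumber K L)
      ≤ 5308416 * (k : ℝ) ^ 3
          * Real.log (coveringNumber (polarBody L) ((5308416 * (k : ℝ))⁻¹ • polarBody K))
          * (1 + Real.log (coveringNumber (polarBody L)
              ((5308416 * (k : ℝ))⁻¹ • polarBody K))) ^ ((k : ℝ)⁻¹) := by
  classical
  have hk0 : (0 : ℝ) < k := by exact_mod_cast hk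
  have hB := hL.polar
  have hε : (5308416 * (k : ℝ))⁻¹ ≤ (2048 * (k : ℝ))⁻¹ := by gcongr; norm_num
  obtain ⟨T, hTcard, hTcov⟩ := exists_cover hB.1
    (hK.polar.smul (inv_pos.mpr (by positivity : (0 : ℝ) < 5308416 * k))).zero_mem_interior
  rw [← hTcard]
  obtain ⟨C, hCcov, hClog⟩ := cover_of_dual_cover hK.1 hK.2.1 hK.zero_mem hK.2.2.2 hB.1 hB.2.1
    hB.zero_mem hB.2.2.2 hk (T := T) (by
      intro b hb
      obtain ⟨c, hc, y, hy, rfl⟩ := Set.mem_iUnion₂.mp (hTcov hb)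
      obtain ⟨z, hz, rfl⟩ := hy
      refine ⟨c, hc, fun x hx => ?_⟩
      simp only [vadd_eq_add, add_sub_cancel_left, real_inner_smul_right]
      rw [abs_mul, abs_of_nonneg (by positivity : (0 : ℝ) ≤ (5308416 * (k : ℝ))⁻¹)]
      exact (mul_le_of_le_one_right (by positivity)
        (abs_inner_le_of_mem_polarBody hK.2.2.2 hx hz)).trans hε)
  refine le_trans ?_ hClog
  have hsub : K ⊆ ⋃ c ∈ C, c +ᵥ L := by
    intro x hx
    obtain ⟨c, hc, hcb⟩ := hCcov x hx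
    refine Set.mem_iUnion₂.mpr ⟨c, hc, x - c, ?_, by simp⟩
    exact mem_of_mem_bipolar hL.2.1 hL.1.isClosed hL.zero_mem
      fun y hy => (abs_le.mp (hcb y hy)).2
  rcases Nat.eq_zero_or_pos (coveringNumber K L) with h | h
  · rw [h, Nat.cast_zero, Real.log_zero]
    exact Real.log_natCast_nonneg _
  · exact Real.log_le_log (by exact_mod_cast h) (by exact_mod_cast coveringNumber_le C hsub)

end Vale.Agent.P126
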